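import Vale.Agent.Helper16.KTV.CondExp

/-!
Two conditional expectations `cexpL` whose label maps form a rectangular
structure on `Ω` (two points with the same two labels coincide, and any two
classes that are linked through a point meet) commute, and their product is
the conditional expectation given the joined label.
(Problem P335, the switch chain on simple graphs.)
-/

set_option linter.unusedSectionVars false

namespace KTV

namespace H24

open Finset

theorem card_filter_eq_one {X : Type*} (Ω : Finset X) (P : X → Prop) [DecidablePred P]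
    (hex : ∃ m ∈ Ω, P m) (huniq : ∀ a ∈ Ω, ∀ b ∈ Ω, P a → P b → a = b) :
    (Ω.filter P).card = 1 := by
  obtain ⟨m, hm, hPm⟩ := hex
  rw [Finset.card_eq_one]
  refine ⟨m, ?_⟩
  ext a
  simp only [mem_filter, mem_singleton]
  constructor
  · rintro ⟨ha, hPa⟩; exact huniq a ha m hm hPa hPm
  · rintro rfl; exact ⟨hm, hPm⟩

section Rect

variable {X Λ1 Λ2 : Type*} [DecidableEq Λ1] [DecidableEq Λ2]

/-- Uniqueness: two points of `Ω` with the same two labels coincide. -/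
def RectU (Ω : Finset X) (l1 : X → Λ1) (l2 : X → Λ2) : Prop :=
  ∀ a ∈ Ω, ∀ b ∈ Ω, l1 a = l1 b → l2 a = l2 b → a = b

/-- Existence: if `y` is in the `l1`-class of `x` and `y'` in the `l2`-class of `x`, then
some point of `Ω` lies in the `l2`-class of `y` and in the `l1`-class of `y'`. -/
def RectM (Ω : Finset X) (l1 : X → Λ1) (l2 : X → Λ2) : Prop :=
  ∀ x ∈ Ω, ∀ y ∈ Ω, ∀ y' ∈ Ω, l1 y = l1 x → l2 y' = l2 x →
    ∃ m ∈ Ω, l2 m = l2 y ∧ l1 m = l1 y'

theorem RectU.symm {Ω : Finset X} {l1 : X → Λ1} {l2 : X → Λ2} (h : RectU Ω l1 l2) :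
    RectU Ω l2 l1 := fun a ha b hb h2 h1 => h a ha b hb h1 h2

theorem RectM.symm {Ω : Finset X} {l1 : X → Λ1} {l2 : X → Λ2} (h : RectM Ω l1 l2) :
    RectM Ω l2 l1 := by
  intro x hx y hy y' hy' h2 h1
  obtain ⟨m, hm, e2, e1⟩ := h x hx y' hy' y hy h1 h2
  exact ⟨m, hm, e1, e2⟩

theorem rect_count {Ω : Finset X} {l1 : X → Λ1} {l2 : X → Λ2}
    (hU : RectU Ω l1 l2) (hM : RectM Ω l1 l2) {x z : X} (hx : x ∈ Ω) (hz : z ∈ Ω) :
    (Ω.filter (fun y => l1 y = l1 x ∧ l2 y = l2 z)).card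
      = (Ω.filter (fun y => l2 y = l2 x ∧ l1 y = l1 z)).card := by
  have hle1 : (Ω.filter (fun y => l1 y = l1 x ∧ l2 y = l2 z)).card ≤ 1 := by
    rw [Finset.card_le_one]
    intro a ha b hb
    obtain ⟨haΩ, ha1, ha2⟩ := mem_filter.mp ha
    obtain ⟨hbΩ, hb1, hb2⟩ := mem_filter.mp hb
    exact hU a haΩ b hbΩ (ha1.trans hb1.symm) (ha2.trans hb2.symm)
  have hle2 : (Ω.filter (fun y => l2 y = l2 x ∧ l1 y = l1 z)).card ≤ 1 := by
    rw [Finset.card_le_one]
    intro a ha b hb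
    obtain ⟨haΩ, ha2, ha1⟩ := mem_filter.mp ha
    obtain ⟨hbΩ, hb2, hb1⟩ := mem_filter.mp hb
    exact hU a haΩ b hbΩ (ha1.trans hb1.symm) (ha2.trans hb2.symm)
  rcases (Ω.filter (fun y => l1 y = l1 x ∧ l2 y = l2 z)).eq_empty_or_nonempty with h1 | h1
  · rcases (Ω.filter (fun y => l2 y = l2 x ∧ l1 y = l1 z)).eq_empty_or_nonempty with h2 | h2
    · rw [h1, h2]
    · exfalso
      obtain ⟨y', hy'⟩ := h2
      obtain ⟨hy'Ω, hy'2, hy'1⟩ := mem_filter.mp hy'
      obtain ⟨m, hm, e2, e1⟩ := hM y' hy'Ω z hz x hx hy'1.symm hy'2.symm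
      have : m ∈ Ω.filter (fun y => l1 y = l1 x ∧ l2 y = l2 z) :=
        mem_filter.mpr ⟨hm, e1, e2⟩
      rw [h1] at this
      exact absurd this (Finset.notMem_empty _)
  · obtain ⟨y, hy⟩ := h1
    obtain ⟨hyΩ, hy1, hy2⟩ := mem_filter.mp hy
    obtain ⟨m, hm, e2, e1⟩ := hM y hyΩ x hx z hz hy1.symm hy2.symm
    have hm' : m ∈ Ω.filter (fun y => l2 y = l2 x ∧ l1 y = l1 z) :=
      mem_filter.mpr ⟨hm, e2, e1⟩
    have c1 : 1 ≤ (Ω.filter (fun y => l1 y = l1 x ∧ l2 y = l2 z)).card :=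
      Finset.card_pos.mpr ⟨y, hy⟩
    have c2 : 1 ≤ (Ω.filter (fun y => l2 y = l2 x ∧ l1 y = l1 z)).card :=
      Finset.card_pos.mpr ⟨m, hm'⟩
    omega

theorem rect_card {Ω : Finset X} {l1 : X → Λ1} {l2 : X → Λ2}
    (hU : RectU Ω l1 l2) (hM : RectM Ω l1 l2) {x y : X} (hx : x ∈ Ω) (hy : y ∈ Ω)
    (hxy : l1 y = l1 x) :
    (Ω.filter (fun z => l2 z = l2 y)).card = (Ω.filter (fun z => l2 z = l2 x)).card := by
  have h1 : ∀ z ∈ Ω.filter (fun z => l2 z = l2 y),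
      (Ω.filter (fun y' => l2 y' = l2 x ∧ l1 y' = l1 z)).card = 1 := by
    intro z hz
    obtain ⟨hzΩ, hz2⟩ := mem_filter.mp hz
    apply card_filter_eq_one
    · obtain ⟨m, hm, e2, e1⟩ := hM y hy x hx z hzΩ hxy.symm hz2
      exact ⟨m, hm, e2, e1⟩
    · intro a ha b hb hPa hPb
      exact hU a ha b hb (hPa.2.trans hPb.2.symm) (hPa.1.trans hPb.1.symm)
  have h2 : ∀ y' ∈ Ω.filter (fun z => l2 z = l2 x),
      (Ω.filter (fun z => l2 z = l2 y ∧ l1 z = l1 y')).card = 1 := by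
    intro y' hy'
    obtain ⟨hy'Ω, hy'2⟩ := mem_filter.mp hy'
    apply card_filter_eq_one
    · obtain ⟨m, hm, e2, e1⟩ := hM x hx y hy y' hy'Ω hxy hy'2
      exact ⟨m, hm, e2, e1⟩
    · intro a ha b hb hPa hPb
      exact hU a ha b hb (hPa.2.trans hPb.2.symm) (hPa.1.trans hPb.1.symm)
  have e1 : (Ω.filter (fun z => l2 z = l2 y)).card
      = ∑ z ∈ Ω.filter (fun z => l2 z = l2 y),
          (Ω.filter (fun y' => l2 y' = l2 x ∧ l1 y' = l1 z)).card := by
    rw [Finset.sum_congr rfl h1]; simp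
  have e2 : (Ω.filter (fun z => l2 z = l2 x)).card
      = ∑ y' ∈ Ω.filter (fun z => l2 z = l2 x),
          (Ω.filter (fun z => l2 z = l2 y ∧ l1 z = l1 y')).card := by
    rw [Finset.sum_congr rfl h2]; simp
  rw [e1, e2]
  simp only [Finset.card_eq_sum_ones]
  apply Finset.sum_comm'
  intro z y'
  simp only [mem_filter]
  constructor
  · rintro ⟨⟨hz, hz2⟩, hy', hy'2, hy'1⟩
    exact ⟨⟨hz, hz2, hy'1.symm⟩, hy', hy'2⟩
  · rintro ⟨⟨hz, hz2, hz1⟩, hy', hy'2⟩
    exact ⟨⟨hz, hz2⟩, hy', hy'2, hz1.symm⟩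

/-- The product of the two conditional expectations as a weighted sum over `Ω`. -/
theorem rect_formula {Ω : Finset X} {l1 : X → Λ1} {l2 : X → Λ2}
    (hU : RectU Ω l1 l2) (hM : RectM Ω l1 l2) (ψ : X → ℝ) {x : X} (hx : x ∈ Ω) :
    cexpL Ω l1 (cexpL Ω l2 ψ) x
      = (∑ z ∈ Ω, ψ z * ((Ω.filter (fun y => l1 y = l1 x ∧ l2 y = l2 z)).card : ℝ))
        / (((Ω.filter (fun y => l1 y = l1 x)).card : ℝ)
          * ((Ω.filter (fun y => l2 y = l2 x)).card : ℝ)) := by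
  rw [cexpL_eq]
  have hin : ∀ y ∈ Ω.filter (fun y => l1 y = l1 x), cexpL Ω l2 ψ y
      = (∑ z ∈ Ω.filter (fun z => l2 z = l2 y), ψ z)
        / ((Ω.filter (fun y => l2 y = l2 x)).card : ℝ) := by
    intro y hy
    obtain ⟨hyΩ, hy1⟩ := mem_filter.mp hy
    rw [cexpL_eq, rect_card hU hM hx hyΩ hy1]
  rw [Finset.sum_congr rfl hin, ← Finset.sum_div, div_div]
  congr 1
  · have hsw : ∑ y ∈ Ω.filter (fun y => l1 y = l1 x), ∑ z ∈ Ω.filter (fun z => l2 z = l2 y), ψ z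
        = ∑ z ∈ Ω, ∑ y ∈ Ω.filter (fun y => l1 y = l1 x ∧ l2 y = l2 z), ψ z := by
      apply Finset.sum_comm'
      intro y z
      simp only [mem_filter]
      constructor
      · rintro ⟨⟨hy, hy1⟩, hz, hz2⟩
        exact ⟨⟨hy, hy1, hz2.symm⟩, hz⟩
      · rintro ⟨⟨hy, hy1, hy2⟩, hz⟩
        exact ⟨⟨hy, hy1⟩, hz, hy2.symm⟩
    rw [hsw]
    refine Finset.sum_congr rfl fun z _ => ?_
    rw [Finset.sum_const, nsmul_eq_mul, mul_comm]
  · rw [mul_comm]

/-- Conditional expectations with a rectangular pair of labels commute. -/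
theorem rect_comm {Ω : Finset X} {l1 : X → Λ1} {l2 : X → Λ2}
    (hU : RectU Ω l1 l2) (hM : RectM Ω l1 l2) (ψ : X → ℝ) {x : X} (hx : x ∈ Ω) :
    cexpL Ω l1 (cexpL Ω l2 ψ) x = cexpL Ω l2 (cexpL Ω l1 ψ) x := by
  rw [rect_formula hU hM ψ hx, rect_formula hU.symm hM.symm ψ hx, mul_comm
    ((Ω.filter (fun y => l1 y = l1 x)).card : ℝ)]
  congr 1
  refine Finset.sum_congr rfl fun z hz => ?_
  rw [rect_count hU hM hx hz]

end Rect

section Join

variable {X Λ1 Λ2 Λ3 : Type*} [DecidableEq Λ1] [DecidableEq Λ2] [DecidableEq Λ3]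

/-- If moreover the classes of a third label are exactly the unions of linked classes,
the product of the two conditional expectations is the third one. -/
theorem rect_join {Ω : Finset X} {l1 : X → Λ1} {l2 : X → Λ2} (l3 : X → Λ3)
    (hU : RectU Ω l1 l2) (hM : RectM Ω l1 l2)
    (hJ : ∀ x ∈ Ω, ∀ z ∈ Ω, (l3 z = l3 x ↔ ∃ y ∈ Ω, l1 y = l1 x ∧ l2 y = l2 z))
    (ψ : X → ℝ) {x : X} (hx : x ∈ Ω) :
    cexpL Ω l1 (cexpL Ω l2 ψ) x = cexpL Ω l3 ψ x := by
  have hN : ∀ z ∈ Ω, ((Ω.filter (fun y => l1 y = l1 x ∧ l2 y = l2 z)).card : ℝ)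
      = if l3 z = l3 x then 1 else 0 := by
    intro z hz
    by_cases h : l3 z = l3 x
    · rw [if_pos h]
      have : (Ω.filter (fun y => l1 y = l1 x ∧ l2 y = l2 z)).card = 1 := by
        apply card_filter_eq_one
        · obtain ⟨y, hy, h1, h2⟩ := (hJ x hx z hz).mp h
          exact ⟨y, hy, h1, h2⟩
        · intro a ha b hb hPa hPb
          exact hU a ha b hb (hPa.1.trans hPb.1.symm) (hPa.2.trans hPb.2.symm)
      rw [this]; simp
    · rw [if_neg h]
      have : Ω.filter (fun y => l1 y = l1 x ∧ l2 y = l2 z) = ∅ := by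
        rw [Finset.filter_eq_empty_iff]
        intro y hy hP
        exact h ((hJ x hx z hz).mpr ⟨y, hy, hP.1, hP.2⟩)
      rw [this]; simp
  have hform : ∀ φ : X → ℝ, cexpL Ω l1 (cexpL Ω l2 φ) x
      = (∑ z ∈ Ω.filter (fun z => l3 z = l3 x), φ z)
        / (((Ω.filter (fun y => l1 y = l1 x)).card : ℝ)
          * ((Ω.filter (fun y => l2 y = l2 x)).card : ℝ)) := by
    intro φ
    rw [rect_formula hU hM φ hx]
    congr 1
    rw [Finset.sum_filter]
    refine Finset.sum_congr rfl fun z hz => ?_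
    rw [hN z hz]
    split_ifs <;> simp
  -- the constant function one
  have hone : cexpL Ω l1 (cexpL Ω l2 (fun _ => (1 : ℝ))) x = 1 := by
    have h2 : ∀ y ∈ Ω, cexpL Ω l2 (fun _ => (1 : ℝ)) y = 1 := by
      intro y hy
      exact cexpL_of_const Ω l2 (fun _ => (1 : ℝ)) hy (fun _ _ _ => rfl)
    rw [cexpL_congr Ω l1 h2 x]
    exact cexpL_of_const Ω l1 (fun _ => (1 : ℝ)) hx (fun _ _ _ => rfl)
  have hcard := hform (fun _ => (1 : ℝ))
  rw [hone] at hcard
  simp only [Finset.sum_const, nsmul_eq_mul, mul_one] at hcard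
  have hpos : (0 : ℝ) < ((Ω.filter (fun y => l1 y = l1 x)).card : ℝ)
      * ((Ω.filter (fun y => l2 y = l2 x)).card : ℝ) := by
    have a1 : (0 : ℝ) < ((Ω.filter (fun y => l1 y = l1 x)).card : ℝ) := by
      have : (Ω.filter (fun y => l1 y = l1 x)).Nonempty := ⟨x, by simp [hx]⟩
      exact_mod_cast this.card_pos
    have a2 : (0 : ℝ) < ((Ω.filter (fun y => l2 y = l2 x)).card : ℝ) := by
      have : (Ω.filter (fun y => l2 y = l2 x)).Nonempty := ⟨x, by simp [hx]⟩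
      exact_mod_cast this.card_pos
    exact mul_pos a1 a2
  have hcard' : ((Ω.filter (fun z => l3 z = l3 x)).card : ℝ)
      = ((Ω.filter (fun y => l1 y = l1 x)).card : ℝ)
        * ((Ω.filter (fun y => l2 y = l2 x)).card : ℝ) := by
    rw [eq_div_iff hpos.ne'] at hcard
    linarith
  rw [hform ψ, cexpL_eq, hcard']

end Join

end H24

end KTV
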